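import Vale.Agent.Lib.P057.Main

/-! P057: exact link between Q1 and Q2. -/

open scoped ENNReal
open Filter Topology

namespace Vale.Agent.Results.P057.WeightDichotomy

open Vale.Agent.P057

theorem result :
    (∀ k : ℕ, 3 ≤ k → ∀ w : ℕ → ℝ≥0∞, Antitone w → ∀ D : ℝ≥0∞, D ≠ ⊤ →
      (∀ n, 1 ≤ n → w n ≤ D * w (4 * n)) →
      (Forces k w ↔ ∑' j : ℕ, w (4 ^ j) * (r k (4 ^ j) : ℝ≥0∞) ≠ ⊤) ∧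
      (Forces k w ↔ ∃ C : ℝ≥0∞, C ≠ ⊤ ∧ ∀ A : Set ℕ, (∀ a ∈ A, 0 < a) → ¬ HasAP k A →
        ∑' a : A, w a ≤ C) ∧
      (Forces k w ↔ ∀ m : ℕ, 1 ≤ m → ∀ A : Set ℕ, (∀ a ∈ A, 0 < a) → ∑' a : A, w a = ⊤ →
        ∑' a : Starts k m A, w a = ⊤)) ∧
    (∀ k : ℕ, 3 ≤ k →
      (Forces k (fun n => (n : ℝ≥0∞)⁻¹) ↔
        ∑' j : ℕ, ((4 ^ j : ℕ) : ℝ≥0∞)⁻¹ * (r k (4 ^ j) : ℝ≥0∞) ≠ ⊤) ∧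
      (Forces k (fun n => (n : ℝ≥0∞)⁻¹) ↔ ∃ C : ℝ≥0∞, C ≠ ⊤ ∧ ∀ A : Set ℕ, (∀ a ∈ A, 0 < a) →
        ¬ HasAP k A → ∑' a : A, ((a : ℕ) : ℝ≥0∞)⁻¹ ≤ C) ∧
      (Forces k (fun n => (n : ℝ≥0∞)⁻¹) ↔ ∀ m : ℕ, 1 ≤ m → ∀ A : Set ℕ, (∀ a ∈ A, 0 < a) →
        ∑' a : A, ((a : ℕ) : ℝ≥0∞)⁻¹ = ⊤ →
        ∑' a : Starts k m A, ((a : ℕ) : ℝ≥0∞)⁻¹ = ⊤) ∧
      (Forces k (fun n => (n : ℝ≥0∞)⁻¹) → ∃ g : ℕ → ℕ, Monotone g ∧ Tendsto g atTop atTop ∧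
        Forces k (fun n => (g n : ℝ≥0∞) * (n : ℝ≥0∞)⁻¹))) :=
  main

end Vale.Agent.Results.P057.WeightDichotomy
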